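import Vale.Agent.P321.R4.H101.BaseAt

/-! # The base of the lower bound for small deletion probabilities -/

namespace Vale.Agent.P321.R4.H101

open Finset Filter Topology
open Vale.Agent.P321.Lt
open Vale.Agent.P321.MA (ev le Prob push restr Dom)

variable {q : ℝ}

theorem ratio_ge (h0 : 0 < q) (h1 : q ≤ 1 / 2) (M : ℕ) : (M : ℝ) ≤ (M : ℝ) / q := by
  rw [le_div_iff₀ h0]
  have : (0 : ℝ) ≤ M := Nat.cast_nonneg _
  nlinarith

theorem Pq_pos (h0 : 0 < q) {M : ℕ} (hM : 1 ≤ M) : 0 < Pq M q := by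
  have : (0 : ℝ) < M := by exact_mod_cast hM
  unfold Pq; positivity

theorem Pq_one (h0 : 0 < q) (h1 : q ≤ 1 / 2) {M : ℕ} (hM : 1 ≤ M) : 1 ≤ Pq M q := by
  have hM' : (1 : ℝ) ≤ M := by exact_mod_cast hM
  exact one_le_pow₀ (hM'.trans (ratio_ge h0 h1 M))

/-- gain of a factor `M` -/
theorem Pq_gain (h0 : 0 < q) (h1 : q ≤ 1 / 2) {M M' : ℕ} (hM : 1 ≤ M') (h : M' + 1 ≤ M) :
    (M : ℝ) * Pq M' q ≤ Pq M q := by
  have hM' : (1 : ℝ) ≤ M' := by exact_mod_cast hM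
  have hle : (M' : ℝ) ≤ M := by exact_mod_cast (by omega : M' ≤ M)
  have hr := ratio_ge h0 h1 M
  have hb : (1 : ℝ) ≤ (M : ℝ) / q := by linarith
  have h2 : Pq M' q ≤ ((M : ℝ) / q) ^ M' :=
    pow_le_pow_left₀ (by positivity) (div_le_div_of_nonneg_right hle h0.le) _
  calc (M : ℝ) * Pq M' q ≤ ((M : ℝ) / q) * ((M : ℝ) / q) ^ M' :=
        mul_le_mul hr h2 (Pq_pos h0 hM).le (by positivity)
    _ = ((M : ℝ) / q) ^ (M' + 1) := by rw [pow_succ]; ring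
    _ ≤ ((M : ℝ) / q) ^ M := pow_le_pow_right₀ hb h

theorem Pq_mono (h0 : 0 < q) (h1 : q ≤ 1 / 2) {M M' : ℕ} (hM : 1 ≤ M') (h : M' ≤ M) :
    Pq M' q ≤ Pq M q := by
  rcases Nat.eq_or_lt_of_le h with rfl | h
  · exact le_rfl
  · have hM1 : (1 : ℝ) ≤ M := by exact_mod_cast (by omega : 1 ≤ M)
    exact (le_mul_of_one_le_left (Pq_pos h0 hM).le hM1).trans (Pq_gain h0 h1 hM h)

theorem Pq_ge (h0 : 0 < q) (h1 : q ≤ 1 / 2) {M : ℕ} (hM : 1 ≤ M) : (M : ℝ) ≤ Pq M q := by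
  have hM1 : (1 : ℝ) ≤ M := by exact_mod_cast hM
  have hr := ratio_ge h0 h1 M
  refine hr.trans ?_
  calc (M : ℝ) / q = ((M : ℝ) / q) ^ 1 := (pow_one _).symm
    _ ≤ _ := pow_le_pow_right₀ (by linarith) hM

theorem Pq_ge_sq (h0 : 0 < q) (h1 : q ≤ 1 / 2) {M : ℕ} (hM : 12 ≤ M) : 12 / q ^ 2 ≤ Pq M q := by
  have hM1 : (12 : ℝ) ≤ M := by exact_mod_cast hM
  have hr := ratio_ge h0 h1 M
  calc 12 / q ^ 2 ≤ (M : ℝ) ^ 2 / q ^ 2 := by gcongr; nlinarith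
    _ = ((M : ℝ) / q) ^ 2 := by rw [div_pow]
    _ ≤ _ := pow_le_pow_right₀ (by linarith) (by omega)

/-- The absolute numerical facts, for all large `X`. -/
theorem ev_abs : ∀ᶠ X : ℕ in atTop,
    Real.log 6 ≤ ((2 : ℝ) ^ X) ^ (1 / 2 : ℝ) ∧
    200000 * ((2 : ℝ) ^ X) ^ (1 + 1 / 4096 : ℝ) ≤ ((2 : ℝ) ^ X) ^ (1025 / 1024 : ℝ) ∧
    6 * ((2 : ℝ) ^ X) ^ (1025 / 1024 : ℝ) ≤ ((2 : ℝ) ^ X) ^ (2 : ℝ) ∧
    2 * Real.log ((2 : ℝ) ^ X) ≤ ((2 : ℝ) ^ X) ^ (1 / 2 : ℝ) ∧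
    2 * ((2 : ℝ) ^ X) ^ (-(1279 / 1024) : ℝ) ≤ ((2 : ℝ) ^ X) ^ (-(1278 / 1024) : ℝ) ∧
    2 * ((2 : ℝ) ^ X) ^ (-(2046 / 1024) : ℝ) ≤ ((2 : ℝ) ^ X) ^ (-(2045 / 1024) : ℝ) ∧
    (X : ℝ) * ((2 : ℝ) ^ X) ^ (1 / 2 : ℝ) ≤ ((2 : ℝ) ^ X) ^ (1 : ℝ) ∧
    64 * ((X : ℝ) * X) * ((2 : ℝ) ^ X) ^ (-(3 / 2) : ℝ) ≤
      ((2 : ℝ) ^ X) ^ (-(3 / 2) + 2 / 1024 : ℝ) ∧
    64 * ((X : ℝ) * X) * ((2 : ℝ) ^ X) ^ (-(5 / 2) : ℝ) ≤
      ((2 : ℝ) ^ X) ^ (-(5 / 2) + 2 / 1024 : ℝ) ∧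
    2 * (X : ℝ) * ((2 : ℝ) ^ X) ^ (-(1 / 2) : ℝ) ≤ ((2 : ℝ) ^ X) ^ (-(1 / 8) : ℝ) := by
  have hxt : Tendsto (fun X : ℕ => (2 : ℝ) ^ X) atTop atTop :=
    tendsto_pow_atTop_atTop_of_one_lt (by norm_num)
  have ev5 : ∀ᶠ X : ℕ in atTop, Real.log 6 ≤ ((2 : ℝ) ^ X) ^ (1 / 2 : ℝ) :=
    hxt.eventually ((tendsto_rpow_atTop (by norm_num)).eventually_ge_atTop _)
  have ev8 := hxt.eventually (ev_rpow_le 200000 (p := 1 + 1 / 4096) (p' := 1025 / 1024)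
    (by norm_num))
  have ev9 := hxt.eventually (ev_rpow_le 6 (p := 1025 / 1024) (p' := 2) (by norm_num))
  have ev10 : ∀ᶠ x : ℝ in atTop, 2 * Real.log x ≤ x ^ (1 / 2 : ℝ) := by
    have h2 := (isLittleO_log_rpow_atTop (r := 1 / 2) (by norm_num)).tendsto_div_nhds_zero
    filter_upwards [h2.eventually (gt_mem_nhds (show (0 : ℝ) < 1 / 2 by norm_num)),
      eventually_gt_atTop 0] with x hx hx0
    have hp : 0 < x ^ (1 / 2 : ℝ) := Real.rpow_pos_of_pos hx0 _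
    rw [div_lt_iff₀ hp] at hx
    linarith only [hx]
  have ev10' := hxt.eventually ev10
  have ev11 := hxt.eventually (ev_rpow_le 2 (p := -(1279 / 1024)) (p' := -(1278 / 1024))
    (by norm_num))
  have ev12 := hxt.eventually (ev_rpow_le 2 (p := -(2046 / 1024)) (p' := -(2045 / 1024))
    (by norm_num))
  -- polynomial factors
  have evX : ∀ (m : ℕ) (C t : ℝ), 0 < t → 0 < C → ∀ᶠ X : ℕ in atTop,
      C * (X : ℝ) ^ m ≤ ((2 : ℝ) ^ X) ^ t := by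
    intro m C t ht hC
    have hb : 1 < (2 : ℝ) ^ t := Real.one_lt_rpow (by norm_num) ht
    have h1 := (tendsto_pow_const_div_const_pow_of_one_lt m hb)
    filter_upwards [h1.eventually (gt_mem_nhds (show (0 : ℝ) < 1 / C by positivity))] with X hX
    have hp : 0 < ((2 : ℝ) ^ t) ^ X := by positivity
    rw [div_lt_iff₀ hp, div_mul_eq_mul_div, one_mul, lt_div_iff₀ hC] at hX
    have e : ((2 : ℝ) ^ X) ^ t = ((2 : ℝ) ^ t) ^ X := by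
      rw [← Real.rpow_natCast, ← Real.rpow_natCast, ← Real.rpow_mul (by norm_num),
        ← Real.rpow_mul (by norm_num), mul_comm]
    rw [e]
    linarith
  have hcomb : ∀ (A p p' : ℝ) (X : ℕ), A ≤ ((2 : ℝ) ^ X) ^ (p' - p) →
      A * ((2 : ℝ) ^ X) ^ p ≤ ((2 : ℝ) ^ X) ^ p' := by
    intro A p p' X h
    have hx : (0 : ℝ) < (2 : ℝ) ^ X := by positivity
    calc A * ((2 : ℝ) ^ X) ^ p ≤ ((2 : ℝ) ^ X) ^ (p' - p) * ((2 : ℝ) ^ X) ^ p :=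
          mul_le_mul_of_nonneg_right h (Real.rpow_nonneg hx.le _)
      _ = _ := by rw [← Real.rpow_add hx]; congr 1; ring
  filter_upwards [ev5, ev8, ev9, ev10', ev11, ev12, evX 1 1 (1 / 2) (by norm_num) (by norm_num),
    evX 2 64 (2 / 1024) (by norm_num) (by norm_num), evX 1 2 (3 / 8) (by norm_num) (by norm_num)]
    with X h5 h8 h9 h10 h11 h12 i1 i2 i3
  refine ⟨h5, h8, h9, h10, h11, h12, ?_, ?_, ?_, ?_⟩
  · refine hcomb _ _ _ X ?_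
    rw [one_mul, pow_one] at i1
    refine i1.trans (le_of_eq ?_)
    norm_num
  · refine hcomb _ _ _ X ?_
    rw [pow_two] at i2
    refine i2.trans (le_of_eq ?_)
    norm_num
  · refine hcomb _ _ _ X ?_
    rw [pow_two] at i2
    refine i2.trans (le_of_eq ?_)
    norm_num
  · refine hcomb _ _ _ X ?_
    rw [pow_one] at i3
    refine i3.trans (le_of_eq ?_)
    norm_num

/-- R5 -/
theorem stBase_of (hD : StDom) (hO : StOver) (hN : StNear) : StBase := by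
  obtain ⟨M1, hM1, hdom⟩ := hD
  obtain ⟨M3, hM3, hover⟩ := hO
  obtain ⟨M4, hM4, hnear⟩ := hN
  obtain ⟨N, hNall⟩ := eventually_atTop.mp ev_abs
  refine ⟨M1 + M3 + M4 + N + 20, by omega, fun q h0 h2 X hX g h d r hg hh hd hr hr1 => ?_⟩
  set M : ℕ := M1 + M3 + M4 + N + 20 with hM
  have h1 : q < 1 := by linarith
  have k1 : Pq M1 q ≤ X := (Pq_mono h0 h2 hM1 (by omega)).trans hX
  have k3 : (20 : ℝ) * Pq M3 q ≤ X := by
    refine le_trans ?_ ((Pq_gain h0 h2 hM3 (by omega : M3 + 1 ≤ M)).trans hX)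
    refine mul_le_mul_of_nonneg_right ?_ (Pq_pos h0 hM3).le
    exact_mod_cast (by omega : 20 ≤ M)
  have k4 : Pq M4 q ≤ X := (Pq_mono h0 h2 hM4 (by omega)).trans hX
  have kM : (M : ℝ) ≤ X := (Pq_ge h0 h2 (by omega)).trans hX
  have kM' : M ≤ X := by exact_mod_cast kM
  have ksq : 12 / q ^ 2 ≤ X := (Pq_ge_sq h0 h2 (by omega)).trans hX
  obtain ⟨e5, e8, e9, e10, e11, e12, i1, i2, i3, i4⟩ := hNall X (by omega)
  have hX2 : 2 ≤ X := by omega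
  have hX0 : (0 : ℝ) < X := by exact_mod_cast (by omega : 0 < X)
  have hx0 : (0 : ℝ) < (2 : ℝ) ^ X := by positivity
  have c1 := Pq_one h0 h2 hM1
  have c4 := Pq_one h0 h2 hM4
  -- the scale
  have hLx4 : ((2 ^ (X - 2) : ℕ) : ℝ) * 4 = (2 : ℝ) ^ X := by
    push_cast
    have : (2 : ℝ) ^ X = 2 ^ (X - 2) * 2 ^ 2 := by rw [← pow_add]; congr 1; omega
    rw [this]; norm_num
  have hL1 : 1 ≤ 2 ^ (X - 2) := Nat.one_le_two_pow
  have hXL : (X : ℝ) ≤ ((2 ^ (X - 2) : ℕ) : ℝ) := by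
    have : X ≤ 2 ^ (X - 2) := by
      obtain ⟨Y, rfl⟩ : ∃ Y, X = Y + 2 := ⟨X - 2, by omega⟩
      have hY : 18 ≤ Y := by omega
      rw [Nat.add_sub_cancel]
      have h3 : ∀ k : ℕ, (k + 18) + 2 ≤ 2 ^ (k + 18) := by
        intro k
        induction k with
        | zero => norm_num
        | succ k ih => rw [show k + 1 + 18 = k + 18 + 1 by ring, pow_succ]; omega
      have := h3 (Y - 18)
      rwa [Nat.sub_add_cancel hY] at this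
    exact_mod_cast this
  -- the rate
  set ρ : ℝ := 1 - 2 * q ^ 2 / 3 with hρ
  have hq2 : 0 < q ^ 2 := by positivity
  have hq2' : q ^ 2 ≤ 1 / 4 := by nlinarith
  have hρ0 : 0 < ρ := by rw [hρ]; linarith
  have hlog : Real.log ρ ≤ -(2 * q ^ 2 / 3) := by
    have := Real.log_le_sub_one_of_pos hρ0
    rw [hρ] at this ⊢
    linarith
  set c : ℝ := -Real.log ρ / 4 with hc
  have hc6 : q ^ 2 / 6 ≤ c := by rw [hc]; linarith
  have hc0 : 0 < c := lt_of_lt_of_le (by positivity) hc6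
  have hpow : ∀ p m : ℝ, -p ≤ m → ((2 ^ (X - 2) : ℕ) : ℝ) ^ p ≤
      (4 : ℝ) ^ m * ((2 : ℝ) ^ X) ^ p := by
    intro p m hm
    have hLeq : ((2 ^ (X - 2) : ℕ) : ℝ) = (2 : ℝ) ^ X / 4 := by linarith
    rw [hLeq, Real.div_rpow hx0.le (by norm_num), div_eq_mul_inv, ← Real.rpow_neg (by norm_num),
      mul_comm]
    exact mul_le_mul_of_nonneg_right (Real.rpow_le_rpow_of_exponent_le (by norm_num) hm)
      (Real.rpow_nonneg hx0.le _)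
  have hprod : ∀ t : ℝ, 0 ≤ t → ∀ D : ℝ, D ≤ 64 * t → 0 ≤ D →
      Pq M4 q * (Pq M1 q * D) ≤ 64 * ((X : ℝ) * X) * t := by
    intro t ht D hD hD0
    have h5 : Pq M4 q * Pq M1 q ≤ (X : ℝ) * X := mul_le_mul k4 k1 (by linarith) hX0.le
    calc Pq M4 q * (Pq M1 q * D) = (Pq M4 q * Pq M1 q) * D := by ring
      _ ≤ ((X : ℝ) * X) * (64 * t) := mul_le_mul h5 hD hD0 (by positivity)
      _ = _ := by ring
  refine base_at h0 h1 (C := Pq M4 q) (ρ := ρ) (c := c)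
    (δ1 := Pq M1 q * ((2 ^ (X - 2) : ℕ) : ℝ) ^ (-(3 / 2) : ℝ))
    (δ2 := Pq M1 q * ((2 ^ (X - 2) : ℕ) : ℝ) ^ (-(5 / 2) : ℝ))
    c4 hρ0 hc hc0 hL1 ?_ ?_ ?_ ?_ ?_ ?_ e5 ?_ ?_ e8 e9 e10 e11 e12 ?_ hX2 hg hh hd hr hr1
  · rintro L rfl
    exact hnear q h0 h2 _ (k4.trans hXL)
  · exact mul_nonneg (by linarith) (Real.rpow_nonneg (Nat.cast_nonneg _) _)
  · exact mul_nonneg (by linarith) (Real.rpow_nonneg (Nat.cast_nonneg _) _)
  · rintro L rfl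
    exact hdom q h0 h2 _ hL1
  · rintro L rfl
    refine hover q h0 h2 _ ?_
    push_cast
    rw [Real.log_pow]
    have h4 : (0.69 : ℝ) ≤ Real.log 2 := by linarith [Real.log_two_gt_d9]
    have h5 : ((X - 2 : ℕ) : ℝ) = X - 2 := by rw [Nat.cast_sub hX2]; norm_num
    have h6 : (20 : ℝ) ≤ X := by exact_mod_cast (by omega : 20 ≤ X)
    rw [h5]
    nlinarith
  · refine le_trans (mul_le_mul_of_nonneg_right ?_ (Real.rpow_nonneg hx0.le _)) i1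
    refine le_trans ?_ ksq
    rw [div_le_div_iff₀ hc0 hq2]
    linarith
  · refine le_trans (hprod _ (Real.rpow_nonneg hx0.le _) _ ?_
      (Real.rpow_nonneg (Nat.cast_nonneg _) _)) i2
    have h3 := hpow (-(3 / 2)) 3 (by norm_num)
    have h4 : (4 : ℝ) ^ (3 : ℝ) = 64 := by norm_num
    rwa [h4] at h3
  · refine le_trans (hprod _ (Real.rpow_nonneg hx0.le _) _ ?_
      (Real.rpow_nonneg (Nat.cast_nonneg _) _)) i3
    have h3 := hpow (-(5 / 2)) 3 (by norm_num)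
    have h4 : (4 : ℝ) ^ (3 : ℝ) = 64 := by norm_num
    rwa [h4] at h3
  · refine le_trans (mul_le_mul_of_nonneg_right ?_ (Real.rpow_nonneg hx0.le _)) i4
    linarith

end Vale.Agent.P321.R4.H101
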