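import Vale.Agent.P321.R4.H101.Spec

/-! # The base triple at one scale, with explicit numerical hypotheses -/

namespace Vale.Agent.P321.R4.H101

open Finset Filter Topology
open Vale.Agent.P321.Lt
open Vale.Agent.P321.MA (ev le Prob push restr Dom)

theorem base_at {q : ℝ} (h0 : 0 < q) (h1 : q < 1) {C ρ c δ1 δ2 : ℝ} {X : ℕ}
    (hC : 1 ≤ C) (hρ0 : 0 < ρ) (hc : c = -Real.log ρ / 4) (hc0 : 0 < c)
    (hL1 : 1 ≤ 2 ^ (X - 2))
    (hbase : ∀ L : ℕ, L = 2 ^ (X - 2) → ∃ Y X0 X1 : Alg, Prob Y ∧ Prob X0 ∧ Prob X1 ∧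
      MA.l1 (W q (xw L L) - Y) ≤ 6 * ρ ^ L ∧
      MA.l1 (W q (xw (L - 1) (L + 1)) - X0) ≤ 6 * ρ ^ L ∧
      MA.l1 (W q (xw (L + 1) (L - 1)) - X1) ≤ 6 * ρ ^ L ∧
      le ((1 - C / Real.sqrt L) • Y) X0 ∧ le ((1 - C / Real.sqrt L) • Y) X1 ∧
      le X0 ((1 + C / Real.sqrt L) • Y) ∧ le X1 ((1 + C / Real.sqrt L) • Y) ∧
      (∀ δ : ℝ, 0 ≤ δ → Dom ((1 / 2 : ℝ) • (cell q (L + 1) (L - 1) - cell q (L - 1) (L + 1)))
        (U q ^ (2 * L + 1)) δ → Dom ((1 / 2 : ℝ) • (X1 - X0)) Y (C * δ)) ∧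
      (∀ δ : ℝ, 0 ≤ δ → Dom ((1 / 2 : ℝ) • (cell q (L + 1) (L - 1) + cell q (L - 1) (L + 1))
          - cell q L L) (U q ^ (2 * L + 1)) δ →
        Dom ((1 / 2 : ℝ) • (X1 + X0) - Y) Y (C * δ)))
    (hδ1 : 0 ≤ δ1) (hδ2 : 0 ≤ δ2)
    (e1 : ∀ L : ℕ, L = 2 ^ (X - 2) →
      Dom ((1 / 2 : ℝ) • (cell q (L + 1) (L - 1) - cell q (L - 1) (L + 1)))
        (U q ^ (2 * L + 1)) δ1 ∧
      Dom ((1 / 2 : ℝ) • (cell q (L + 1) (L - 1) + cell q (L - 1) (L + 1)) - cell q L L)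
        (U q ^ (2 * L + 1)) δ2)
    (e2 : ∀ L : ℕ, L = 2 ^ (X - 2) →
      ∃ (K : ℕ) (h : LA), K ≤ L ∧ MA.nonneg h ∧ le h (cell q L L ^ K) ∧
        le h (cell q L L ^ (K + 1)) ∧ (L : ℝ) ^ (-(1 / 4096) : ℝ) ≤ MA.l1 h)
    (e4 : 2 / c * ((2 : ℝ) ^ X) ^ (1 / 2 : ℝ) ≤ ((2 : ℝ) ^ X) ^ (1 : ℝ))
    (e5 : Real.log 6 ≤ ((2 : ℝ) ^ X) ^ (1 / 2 : ℝ))
    (e6 : C * δ1 ≤ ((2 : ℝ) ^ X) ^ (-(3 / 2) + 2 / 1024 : ℝ))
    (e7 : C * δ2 ≤ ((2 : ℝ) ^ X) ^ (-(5 / 2) + 2 / 1024 : ℝ))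
    (e8 : 200000 * ((2 : ℝ) ^ X) ^ (1 + 1 / 4096 : ℝ) ≤ ((2 : ℝ) ^ X) ^ (1025 / 1024 : ℝ))
    (e9 : 6 * ((2 : ℝ) ^ X) ^ (1025 / 1024 : ℝ) ≤ ((2 : ℝ) ^ X) ^ (2 : ℝ))
    (e10 : 2 * Real.log ((2 : ℝ) ^ X) ≤ ((2 : ℝ) ^ X) ^ (1 / 2 : ℝ))
    (e11 : 2 * ((2 : ℝ) ^ X) ^ (-(1279 / 1024) : ℝ) ≤ ((2 : ℝ) ^ X) ^ (-(1278 / 1024) : ℝ))
    (e12 : 2 * ((2 : ℝ) ^ X) ^ (-(2046 / 1024) : ℝ) ≤ ((2 : ℝ) ^ X) ^ (-(2045 / 1024) : ℝ))
    (e13 : 2 * C * ((2 : ℝ) ^ X) ^ (-(1 / 2) : ℝ) ≤ ((2 : ℝ) ^ X) ^ (-(1 / 8) : ℝ))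
    (hX2 : 2 ≤ X) {g hh d r : ℕ} (hg : 1025 * X ≤ 1024 * g) (hhh : 1024 * hh ≤ 1278 * X)
    (hd : 1024 * d ≤ 2045 * X) (hr : 8 * r ≤ X) (hr1 : 1 ≤ r) :
    MA.HasTri q g (X + 1) hh d r (Real.exp (-(2 : ℝ) ^ (X / 2))) := by
  set x : ℝ := (2 : ℝ) ^ X with hxdef
  obtain ⟨L, hL⟩ : ∃ L : ℕ, L = 2 ^ (X - 2) := ⟨_, rfl⟩
  rw [← hL] at hL1
  replace hbase := hbase L hL
  replace e1 := e1 L hL
  replace e2 := e2 L hL
  clear_value x
  have hx1 : 1 ≤ x := by rw [hxdef]; exact one_le_pow₀ (by norm_num)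
  have hx0 : 0 < x := by linarith only [h0, h1, hx1]
  have hLx4 : (L : ℝ) * 4 = x := by
    rw [hL, hxdef]
    push_cast
    have : (2 : ℝ) ^ X = 2 ^ (X - 2) * 2 ^ 2 := by rw [← pow_add]; congr 1; omega
    rw [this]; norm_num
  have hLeq : (L : ℝ) = x / 4 := by linarith only [hLx4]
  have hLx : (L : ℝ) ≤ x := by linarith only [hLx4]
  have hLpos : (0 : ℝ) < L := by linarith only [h0, h1, hx1, hLx4]
  have hL1' : (1 : ℝ) ≤ L := by exact_mod_cast hL1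
  obtain ⟨Y, X0, X1, pY, pX0, pX1, er, er0, er1, lo0, lo1, hi0, hi1, df, de⟩ := hbase
  -- error
  have herr : 6 * ρ ^ L ≤ Real.exp (-x ^ (1 / 2 : ℝ)) := by
    have h3 : ρ ^ L ≤ Real.exp (-(c * x)) := by
      have h4 : ρ ^ L = Real.exp (L * Real.log ρ) := by
        rw [mul_comm, Real.exp_mul, Real.exp_log hρ0, Real.rpow_natCast]
      rw [h4]
      apply Real.exp_le_exp.mpr
      rw [hLeq, hc]
      apply le_of_eq; ring
    have h7 : 2 * x ^ (1 / 2 : ℝ) ≤ c * x := by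
      rw [Real.rpow_one] at e4
      have := mul_le_mul_of_nonneg_left e4 hc0.le
      have e : c * (2 / c * x ^ (1 / 2 : ℝ)) = 2 * x ^ (1 / 2 : ℝ) := by (clear * - hc0 hx1; field_simp)
      linarith only [this, e]
    have h8 : (6 : ℝ) = Real.exp (Real.log 6) := (Real.exp_log (by norm_num)).symm
    calc 6 * ρ ^ L ≤ 6 * Real.exp (-(c * x)) := mul_le_mul_of_nonneg_left h3 (by norm_num)
      _ = Real.exp (Real.log 6 + -(c * x)) := by rw [Real.exp_add, ← h8]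
      _ ≤ _ := Real.exp_le_exp.mpr (by linarith only [e5, h7])
  have hexp : Real.exp (-x ^ (1 / 2 : ℝ)) ≤ x ^ (-2 : ℝ) := by
    have h3 : x ^ (-2 : ℝ) = Real.exp (Real.log x * (-2)) := Real.rpow_def_of_pos hx0 _
    rw [h3]
    exact Real.exp_le_exp.mpr (by linarith only [e10])
  have hE : Real.exp (-x ^ (1 / 2 : ℝ)) ≤ Real.exp (-(2 : ℝ) ^ (X / 2)) := by
    apply Real.exp_le_exp.mpr
    have : (2 : ℝ) ^ (X / 2) ≤ x ^ (1 / 2 : ℝ) := by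
      rw [hxdef]
      refine two_pow_le_rpow ?_
      have h5 : (X / 2) * 2 ≤ X := Nat.div_mul_le_self X 2
      have h6 : (((X / 2 : ℕ) : ℝ)) * 2 ≤ X := by exact_mod_cast h5
      linarith only [h6]
    linarith only [this]
  -- slip
  obtain ⟨K, h, hKL, hh0, hK, hK1, hη⟩ := e2
  obtain ⟨G, hG, hG2⟩ := slip_word h0.le h1.le hh0 hK hK1 (Real.rpow_pos_of_pos hLpos _) hη
  have hGx : 1000 * (G : ℝ) ≤ x ^ (1025 / 1024 : ℝ) := by
    have h3 : (K : ℝ) + 1 ≤ 2 * L := by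
      have : (K : ℝ) ≤ L := by exact_mod_cast hKL
      linarith only [hL1', this]
    have h4 : 100 * ((K : ℝ) + 1) / (L : ℝ) ^ (-(1 / 4096) : ℝ) ≤ 200 * x ^ (1 + 1 / 4096 : ℝ) := by
      rw [Real.rpow_neg hLpos.le, div_inv_eq_mul]
      have h5 : (L : ℝ) ^ (1 / 4096 : ℝ) ≤ x ^ (1 / 4096 : ℝ) :=
        Real.rpow_le_rpow hLpos.le hLx (by norm_num)
      rw [Real.rpow_add hx0, Real.rpow_one]
      calc 100 * ((K : ℝ) + 1) * (L : ℝ) ^ (1 / 4096 : ℝ)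
          ≤ 100 * (2 * x) * x ^ (1 / 4096 : ℝ) :=
            mul_le_mul (by linarith only [hLx4, h3]) h5 (Real.rpow_nonneg hLpos.le _) (by (clear * - hx1; positivity))
        _ = _ := by ring
    linarith only [e8, hG2, h4]
  have hslip := slip_near (X := W q (xw L L)) (W_prob h0.le h1.le (xw L L)) pY hG
    (er.trans herr) (by
      have h3 : (4 * (1000 * (G : ℝ)) + 2) ≤ x ^ (2 : ℝ) := by
        have : (1 : ℝ) ≤ x ^ (1025 / 1024 : ℝ) := Real.one_le_rpow hx1 (by norm_num)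
        linarith only [this, hGx, e9]
      calc (4 * (1000 * (G : ℝ)) + 2) * Real.exp (-x ^ (1 / 2 : ℝ))
          ≤ x ^ (2 : ℝ) * x ^ (-2 : ℝ) :=
            mul_le_mul h3 hexp (Real.exp_pos _).le (Real.rpow_nonneg hx0.le _)
        _ = 1 := by rw [← Real.rpow_add hx0]; norm_num)
  -- exponents
  set a : ℝ := x ^ (-(767 / 1024) : ℝ) with ha
  set b : ℝ := x ^ (-(1279 / 1024) : ℝ) with hb
  have hsq1 : a ^ 2 = x ^ (-(3 / 2) + 2 / 1024 : ℝ) := by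
    rw [ha, ← Real.rpow_natCast, ← Real.rpow_mul hx0.le]; congr 1; push_cast; ring
  have hsq2 : b ^ 2 = x ^ (-(5 / 2) + 2 / 1024 : ℝ) := by
    rw [hb, ← Real.rpow_natCast, ← Real.rpow_mul hx0.le]; congr 1; push_cast; ring
  have ha0 : 0 ≤ a := Real.rpow_nonneg hx0.le _
  have hb0 : 0 ≤ b := Real.rpow_nonneg hx0.le _
  have hdf : C * δ1 ≤ a ^ 2 := by rw [hsq1]; exact e6
  have hde : C * δ2 ≤ b ^ 2 := by rw [hsq2]; exact e7
  have hba : b + a ^ 2 ≤ 2 * b := by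
    have : a ^ 2 ≤ b := by
      rw [hsq1, hb]
      exact Real.rpow_le_rpow_of_exponent_le hx1 (by norm_num)
    linarith only [this]
  have inv_le : ∀ {n : ℕ} {s : ℝ}, (n : ℝ) ≤ s * X → x ^ (-s) ≤ ((2 : ℝ) ^ n)⁻¹ := by
    intro n s hns
    rw [Real.rpow_neg hx0.le]
    refine inv_anti₀ (by positivity) ?_
    rw [hxdef]
    exact two_pow_le_rpow hns
  have heta : b + a ^ 2 ≤ ((2 : ℝ) ^ hh)⁻¹ := by
    refine (hba.trans e11).trans (inv_le ?_)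
    have : (1024 : ℝ) * hh ≤ 1278 * X := by exact_mod_cast hhh
    linarith only [this]
  have hab : a * (b + a ^ 2) ≤ ((2 : ℝ) ^ d)⁻¹ := by
    have h3 : a * (b + a ^ 2) ≤ 2 * x ^ (-(2046 / 1024) : ℝ) := by
      calc a * (b + a ^ 2) ≤ a * (2 * b) := mul_le_mul_of_nonneg_left hba ha0
        _ = 2 * (a * b) := by ring
        _ = _ := by
          rw [ha, hb, ← Real.rpow_add hx0]; norm_num
    refine (h3.trans e12).trans (inv_le ?_)
    have : (1024 : ℝ) * d ≤ 2045 * X := by exact_mod_cast hd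
    linarith only [this]
  have hratio : C / Real.sqrt L ≤ ((2 : ℝ) ^ r)⁻¹ := by
    have h3 : C / Real.sqrt L = 2 * C * x ^ (-(1 / 2) : ℝ) := by
      rw [Real.sqrt_eq_rpow, hLeq, Real.div_rpow hx0.le (by norm_num), Real.rpow_neg hx0.le]
      have h4 : (4 : ℝ) ^ (1 / 2 : ℝ) = 2 := by
        rw [← Real.sqrt_eq_rpow]
        have : (4 : ℝ) = 2 ^ 2 := by norm_num
        rw [this, Real.sqrt_sq (by norm_num)]
      rw [h4]
      have : 0 < x ^ (1 / 2 : ℝ) := Real.rpow_pos_of_pos hx0 _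
      (clear * - hx1 hC; field_simp)
    rw [h3]
    refine e13.trans (inv_le ?_)
    have : (8 : ℝ) * r ≤ X := by exact_mod_cast hr
    linarith only [this]
  have hr2 : ((2 : ℝ) ^ r)⁻¹ ≤ 1 / 2 := by
    have : (2 : ℝ) ^ 1 ≤ 2 ^ r := pow_le_pow_right₀ (by norm_num) hr1
    rw [pow_one] at this
    rw [one_div]
    exact inv_anti₀ (by norm_num) this
  have hr0 : 0 < ((2 : ℝ) ^ r)⁻¹ := by positivity
  have lo : ∀ {z : Alg}, le ((1 - C / Real.sqrt L) • Y) z →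
      le ((1 - ((2 : ℝ) ^ r)⁻¹) • Y) z := by
    intro z hz
    refine MA.le_trans ?_ hz
    intro w
    rw [MonoidAlgebra.coeff_smul, MonoidAlgebra.coeff_smul, Finsupp.smul_apply,
      Finsupp.smul_apply, smul_eq_mul, smul_eq_mul]
    exact mul_le_mul_of_nonneg_right (by linarith only [hratio]) (pY.nonneg w)
  have hi : ∀ {z : Alg}, le z ((1 + C / Real.sqrt L) • Y) →
      le z ((1 + ((2 : ℝ) ^ r)⁻¹) • Y) := by
    intro z hz
    refine MA.le_trans hz ?_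
    intro w
    rw [MonoidAlgebra.coeff_smul, MonoidAlgebra.coeff_smul, Finsupp.smul_apply,
      Finsupp.smul_apply, smul_eq_mul, smul_eq_mul]
    exact mul_le_mul_of_nonneg_right (by linarith only [hratio]) (pY.nonneg w)
  set e : Alg := (1 / 2 : ℝ) • (X1 + X0) - Y with he
  set f : Alg := (1 / 2 : ℝ) • (X1 - X0) with hf
  have hX0 : Y + e - f = X0 := by rw [he, hf]; module
  have hX1 : Y + e + f = X1 := by rw [he, hf]; module
  refine ⟨xw L L, xw (L - 1) (L + 1), xw (L + 1) (L - 1), Y, e, f, a, b, 1000 * G, ?_⟩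
  have hlen : (xw L L).length = 4 * L + 1 := by rw [xw_length]; ring
  constructor
  · exact xw_ne hL1
  · rw [xw_length, xw_length]; (clear * - hL hL1; (clear * - hL hL1; omega))
  · rw [xw_length, xw_length]; omega
  · rw [hlen]
    have h5 : 4 * L = 2 ^ X := by
      rw [hL]
      have : 2 ^ X = 2 ^ (X - 2) * 2 ^ 2 := by rw [← pow_add]; congr 1; omega
      rw [this]; ring
    have h6 : 1 ≤ 2 ^ X := Nat.one_le_two_pow
    rw [h5, pow_succ]; omega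
  · exact (er.trans herr).trans hE
  · rw [hX0]; exact (er0.trans herr).trans hE
  · rw [hX1]; exact (er1.trans herr).trans hE
  · constructor
    · exact pY
    · rw [he, MA.aug_sub, MA.aug_smul, MA.aug_add, pX0.aug, pX1.aug, pY.aug]; norm_num
    · rw [hf, MA.aug_smul, MA.aug_sub, pX0.aug, pX1.aug]; norm_num
    · exact (df _ hδ1 e1.1).mono pY.nonneg hdf
    · exact (de _ hδ2 e1.2).mono pY.nonneg hde
    · exact ha0
    · exact Real.rpow_le_one_of_one_le_of_nonpos hx1 (by norm_num)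
    · exact hb0
    · exact Real.rpow_le_one_of_one_le_of_nonpos hx1 (by norm_num)
    · linarith only [hr2]
    · linarith only [hr0]
    · linarith only [hr0]
    · rw [hX0]; exact pX0
    · rw [hX1]; exact pX1
    · rw [hX0]; exact lo lo0
    · rw [hX1]; exact lo lo1
    · rw [hX0]; exact hi hi0
    · rw [hX1]; exact hi hi1
  · exact heta
  · exact hab
  · exact hslip
  · have h3 : x ^ (1025 / 1024 : ℝ) ≤ (2 : ℝ) ^ g := by
      rw [hxdef]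
      refine rpow_le_two_pow ?_
      have : (1025 : ℝ) * X ≤ 1024 * g := by exact_mod_cast hg
      linarith only [this]
    have h4 : ((1000 * G : ℕ) : ℝ) ≤ ((2 ^ g : ℕ) : ℝ) := by
      push_cast
      exact hGx.trans h3
    exact_mod_cast h4


end Vale.Agent.P321.R4.H101
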