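import Vale.Agent.P321.R4.H101.Low
import Vale.Agent.P321.R4.H257.Dom
import Vale.Agent.P321.R4.H306.Near
import Vale.Agent.P321.R4.H504.Over
import Vale.Agent.P321.R4.H845.CoreB

/-! # The superpolynomial lower bound for all `q ≥ (log n) ^ (-c')` -/

namespace Vale.Agent.P321.R4.H101

open scoped unitInterval

theorem stBase : StBase :=
  stBase_of H257.stDom (H504.stOver Vale.Agent.P321.Cr.J845.stCore) H306.stNear

/-- **The superpolynomial lower bound with an explicit range of deletion probabilities.** -/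
theorem lower_explicit : ∃ c c' : ℝ, 0 < c ∧ 0 < c' ∧ ∃ n₀ : ℕ, ∀ n : ℕ, n₀ ≤ n → ∀ q : I,
    (Real.log n) ^ (-c') ≤ (q : ℝ) →
      (⌈(n : ℝ) ^ (c * Real.log (Real.log n))⌉₊ : ℕ∞) ≤ T q n :=
  lower_explicit_of stBase

end Vale.Agent.P321.R4.H101
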