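import Vale.Agent.P321.R4.H101.Rate

/-! # The lower bound for all `q ≥ (log n) ^ (-c')` -/

namespace Vale.Agent.P321.R4.H101

open Finset Filter Topology
open scoped unitInterval

/-- The superpolynomial lower bound with an explicit range of deletion probabilities. -/
theorem lower_explicit_of (hB : StBase) : ∃ c c' : ℝ, 0 < c ∧ 0 < c' ∧ ∃ n₀ : ℕ, ∀ n : ℕ,
    n₀ ≤ n → ∀ q : I, (Real.log n) ^ (-c') ≤ (q : ℝ) →
      (⌈(n : ℝ) ^ (c * Real.log (Real.log n))⌉₊ : ℕ∞) ≤ T q n := by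
  obtain ⟨M, hM, hbase⟩ := hB
  have hM0 : (0 : ℝ) < M := by exact_mod_cast hM
  refine ⟨1 / 65536, 1 / (8 * M), by norm_num, by positivity, ?_⟩
  have hlogt : Tendsto (fun n : ℕ => Real.log (n : ℝ)) atTop atTop :=
    Real.tendsto_log_atTop.comp tendsto_natCast_atTop_atTop
  have ev1 := hlogt.eventually (Lt.ev_rpow_le (2 * (M : ℝ) ^ M) (p := 1 / 8) (p' := 1 / 4)
    (by norm_num))
  have ev2 : ∀ᶠ n : ℕ in atTop, (2 : ℝ) ≤ (Real.log (n : ℝ)) ^ (1 / (8 * M) : ℝ) :=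
    hlogt.eventually ((tendsto_rpow_atTop (by positivity)).eventually_ge_atTop 2)
  have ev3 := hlogt.eventually_ge_atTop 3
  obtain ⟨K, hK⟩ : ∃ K, K = 4 * (270 + 24) := ⟨_, rfl⟩
  have ev4 := eventually_ge_atTop (2 ^ 2 ^ K : ℕ)
  suffices h : ∀ᶠ n : ℕ in atTop, ∀ q : I, (Real.log n) ^ (-(1 / (8 * M) : ℝ)) ≤ (q : ℝ) →
      (⌈(n : ℝ) ^ ((1 / 65536 : ℝ) * Real.log (Real.log n))⌉₊ : ℕ∞) ≤ T q n by
    exact eventually_atTop.mp h
  filter_upwards [ev1, ev2, ev3, ev4] with n h1 h2 h3 h4 q hq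
  set y : ℝ := Real.log (n : ℝ) with hy
  have hy0 : 0 < y := by linarith
  set t : ℝ := y ^ (1 / (8 * M) : ℝ) with ht
  have ht0 : 0 < t := by linarith
  have hqt : y ^ (-(1 / (8 * M) : ℝ)) = 1 / t := by
    rw [Real.rpow_neg hy0.le, ← ht]
    exact (one_div t).symm
  rw [hqt] at hq
  have hq0 : 0 < 1 / t := by positivity
  have hq2 : 1 / t ≤ 1 / 2 := one_div_le_one_div_of_le (by norm_num) h2
  set q₁ : I := ⟨1 / t, hq0.le, by linarith⟩ with hq₁
  refine le_trans ?_ (R3.H101.T_mono_q (q := q₁) (q' := q) hq n)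
  -- parameters
  obtain ⟨lam, hlam⟩ : ∃ lam, lam = Nat.log 2 n := ⟨_, rfl⟩
  obtain ⟨mu, hmu⟩ : ∃ mu, mu = Nat.log 2 lam := ⟨_, rfl⟩
  obtain ⟨N, hN⟩ : ∃ N, N = mu / 4 := ⟨_, rfl⟩
  have hlam1 : 2 ^ K ≤ lam := by
    rw [hlam]
    exact Nat.le_log_of_pow_le one_lt_two h4
  have hmu1 : K ≤ mu := by
    rw [hmu]
    exact Nat.le_log_of_pow_le one_lt_two hlam1
  have hN1 : 270 + 24 ≤ N := by omega
  have hn0 : 0 < n := lt_of_lt_of_le (Nat.pow_pos (by norm_num)) h4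
  -- size of the constant
  have hn2 : n < 2 ^ (lam + 1) := by rw [hlam]; exact Nat.lt_pow_succ_log_self one_lt_two n
  have hl2 : lam < 2 ^ (mu + 1) := by rw [hmu]; exact Nat.lt_pow_succ_log_self one_lt_two lam
  have hylam : y ≤ lam := by
    have hn2' : (n : ℝ) ≤ 2 ^ (lam + 1) := by exact_mod_cast hn2.le
    have h5 := Real.log_le_log (by exact_mod_cast hn0) hn2'
    rw [Real.log_pow] at h5
    push_cast at h5
    have h6 : Real.log 2 ≤ 0.7 := by linarith [Real.log_two_lt_d9]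
    have h7 : ((lam : ℝ) + 1) * Real.log 2 ≤ ((lam : ℝ) + 1) * 0.7 :=
      mul_le_mul_of_nonneg_left h6 (by positivity)
    have h8 : y ≤ ((lam : ℝ) + 1) * 0.7 := h5.trans h7
    linarith
  have hy4 : y ^ (1 / 4 : ℝ) ≤ 2 * 2 ^ N := by
    have h5 : y ≤ (2 * 2 ^ N : ℝ) ^ 4 := by
      refine hylam.trans ?_
      have h6 : lam ≤ (2 * 2 ^ N) ^ 4 := by
        refine hl2.le.trans ?_
        have e : (2 * 2 ^ N) ^ 4 = 2 ^ (4 * N + 4) := by
          rw [← pow_succ', ← pow_mul]; congr 1; ring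
        rw [e]
        exact Nat.pow_le_pow_right (by norm_num) (by omega)
      exact_mod_cast h6
    calc y ^ (1 / 4 : ℝ) ≤ ((2 * 2 ^ N : ℝ) ^ 4) ^ (1 / 4 : ℝ) :=
          Real.rpow_le_rpow hy0.le h5 (by norm_num)
      _ = 2 * 2 ^ N := by
          rw [← Real.rpow_natCast, ← Real.rpow_mul (by positivity)]
          norm_num
  have hP : Pq M (q₁ : ℝ) ≤ 2 ^ N := by
    have e : Pq M (q₁ : ℝ) = (M : ℝ) ^ M * y ^ (1 / 8 : ℝ) := by
      have e1 : (M : ℝ) / (q₁ : ℝ) = M * t := by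
        rw [hq₁]
        simp only [one_div, div_inv_eq_mul]
      rw [Pq, e1, mul_pow, ht, ← Real.rpow_natCast (y ^ (1 / (8 * M) : ℝ)), ← Real.rpow_mul hy0.le]
      congr 2
      field_simp
    rw [e]
    linarith
  have key : ∀ m : ℕ, (∃ est : Estimator n, Reconstructs q₁ n m est) →
      (n : ℝ) ^ ((1 / 65536 : ℝ) * Real.log (Real.log n)) ≤ m := fun m hm =>
    rate_final2 (A := 24) (MA.step_ok (MA.smallDS le_rfl) hq0.le (by show 1 / t ≤ 1; linarith))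
      (fun _ _ _ _ _ _ H hE _ hn _ hm => MA.HasTri'.lower q₁ H hE hn hm)
      hlam hmu hN (by omega)
      (fun X hX => hbase (q₁ : ℝ) hq0 hq2 X (hP.trans (by exact_mod_cast hX))) hm
  unfold T
  refine le_iInf₂ fun m hm => ?_
  have h5 := Nat.ceil_le.mpr (key m hm)
  exact_mod_cast h5

end Vale.Agent.P321.R4.H101
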