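import Vale.Agent.P321.R4.H101.Base
import Vale.Agent.P321.R3.H101.Mono

/-! # The lower bound with an explicit range of deletion probabilities -/

namespace Vale.Agent.P321.R4.H101

open Finset Filter Topology
open Vale.Agent.P321.MA hiding le_trans
open scoped unitInterval

/-- the bound at the parameters `N`, `z`; the base is used above `z` only -/
theorem rate_at2 {q : I} {A N z : ℕ} (hstep : StepOK q A) (hlow : LowerOK q) (hN : 270 ≤ N)
    (hA : A ≤ N) (hz : 33 * N ^ 2 ≤ z)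
    (hbase : ∀ X : ℕ, z ≤ X → ∀ g h d r : ℕ, 1025 * X ≤ 1024 * g → 1024 * h ≤ 1278 * X →
      1024 * d ≤ 2045 * X → 8 * r ≤ X → 1 ≤ r →
      HasTri q g (X + 1) h d r (Real.exp (-(2 : ℝ) ^ (X / 2))))
    {lam : ℕ} (h1 : 66560 * (N * (z * 4 ^ (N - 264))) ≤ lam)
    (h2 : lam ≤ 133120 * (N * (z * 4 ^ (N - 264)))) {n : ℕ} (hn : 2 ^ lam ≤ n) {m : ℕ}
    (hm : ∃ est : Estimator n, Reconstructs q n m est) :
    (2 : ℝ) ^ (lam * N / 2048) ≤ 12 * m := by
  obtain ⟨J, hJ⟩ : ∃ J, J = N - 264 := ⟨_, rfl⟩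
  rw [← hJ] at h1 h2
  have hN2 : 264 * 264 ≤ N ^ 2 := by nlinarith only [hN]
  have hz1 : 1 ≤ z := by omega
  have hNz : N ≤ N * z := Nat.le_mul_of_pos_right _ hz1
  have hzN : z ≤ N * z := Nat.le_mul_of_pos_left _ (by omega)
  have hb := hbase (4096 * (N * z)) (by omega) (4100 * (N * z)) (5112 * (N * z)) (8180 * (N * z))
    (512 * (N * z)) (by omega) (by omega) (by omega) (by omega) (by omega)
  have hc := rate_core hstep (by omega) hA hz (Real.exp_pos _).le hb J (by omega)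
  obtain ⟨s, hs⟩ : ∃ s, s = ss N z J := ⟨_, rfl⟩
  have lo := ss_lo N z J
  have hi := ss_hi N z J (by omega) (by omega)
  rw [← hs] at hc lo hi
  have hi' : s ≤ 130 * z * 4 ^ J := by exact_mod_cast hi
  have herr0 := err_arith N z J (by omega) hz1 (by omega) (by omega)
  obtain ⟨B, hB⟩ : ∃ B, B = N * (z * 4 ^ J) := ⟨_, rfl⟩
  rw [← hB] at h1 h2 herr0
  obtain ⟨P, hP⟩ : ∃ P, P = N * s := ⟨_, rfl⟩
  rw [← hP] at hc
  have lo2 : 65 * B ≤ P := by
    have := Nat.mul_le_mul_left N lo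
    have e : N * (65 * z * 4 ^ J) = 65 * B := by rw [hB]; ring
    omega
  have hi2 : P ≤ 130 * B := by
    have := Nat.mul_le_mul_left N hi'
    have e : N * (130 * z * 4 ^ J) = 130 * B := by rw [hB]; ring
    omega
  have hl0 : 512 * P ≤ lam := by omega
  have hl : 2 ^ (512 * P) ≤ n := _root_.le_trans (two_pow_mono hl0) hn
  have hJN : 129 + J ≤ N := by omega
  -- the error
  have herr : (2 : ℝ) ^ (512 * P) * Real.exp (-(2 : ℝ) ^ (4096 * (N * z) / 2))
      ≤ ((2 : ℝ) ^ (4 * P * (129 + J)))⁻¹ := by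
    refine exp_arith (c' := 2048 * (N * z)) ?_ (by omega)
    have g2 : 4 * P * (129 + J) ≤ 4 * P * N := Nat.mul_le_mul_left _ hJN
    have g3 : 512 * P + 4 * P * N ≤ 512 * P * N := by
      have a1 : P * 270 ≤ P * N := Nat.mul_le_mul_left _ hN
      have a2 : 4 * P * N = 4 * (P * N) := by ring
      have a3 : 512 * P * N = 512 * (P * N) := by ring
      omega
    have g4 : 512 * P * N ≤ 512 * (130 * B) * N :=
      Nat.mul_le_mul_right _ (Nat.mul_le_mul_left _ hi2)
    have g5 : 512 * (130 * B) * N = 66560 * (N * B) := by ring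
    omega
  have hf := hlow _ _ _ _ _ _ hc herr n hl m hm
  refine _root_.le_trans ?_ hf
  refine pow_le_pow_right₀ (by norm_num) ?_
  -- exponents
  have k1 : 4 * P * (129 + J) / 2 = 2 * P * (129 + J) := by
    have : 4 * P * (129 + J) = 2 * (2 * P * (129 + J)) := by ring
    omega
  rw [k1]
  have k2 : N ≤ 2 * (129 + J) := by omega
  have k3 : lam * N ≤ 133120 * B * N := Nat.mul_le_mul_right _ h2
  have k4 : 133120 * B * N = 2048 * (65 * B * N) := by ring
  have k5 : 65 * B * N ≤ P * (2 * (129 + J)) := Nat.mul_le_mul lo2 k2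
  have k6 : P * (2 * (129 + J)) = 2 * P * (129 + J) := by ring
  rw [Nat.div_le_iff_le_mul_add_pred (by norm_num)]
  omega

theorem two_pow_le_z {N lam z D : ℕ} (hN : 270 ≤ N) (hD : D = N * 4 ^ (N - 264))
    (hlam : 2 ^ (4 * N) ≤ lam) (hz : z = lam / (66560 * D)) : 2 ^ N ≤ z := by
  have hD1 : 1 ≤ D := by
    rw [hD]
    exact Nat.mul_pos (by omega) (by positivity)
  rw [hz, Nat.le_div_iff_mul_le (by omega)]
  refine Nat.le_trans ?_ hlam
  have h3 := choice_pow N hN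
  have h2 : N ≤ 2 ^ N := Nat.lt_two_pow_self.le
  have e2 : 2 ^ (4 * N) = 2 ^ N * (2 ^ N * 2 ^ (2 * N)) := by
    rw [← pow_add, ← pow_add]
    congr 1
    ring
  rw [e2, hD]
  refine Nat.mul_le_mul_left _ ?_
  calc 66560 * (N * 4 ^ (N - 264)) = N * (4 ^ (N - 264) * 66560) := by ring
    _ ≤ 2 ^ N * 2 ^ (2 * N) := Nat.mul_le_mul h2 ((Nat.mul_le_mul_left _ (by norm_num)).trans h3)

/-- the final bound, when the base is available above `2 ^ N`, `N = log log n / 4` -/
theorem rate_final2 {q : I} {A : ℕ} (hstep : StepOK q A) (hlow : LowerOK q) {n lam mu N : ℕ}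
    (hlam : lam = Nat.log 2 n) (hmu : mu = Nat.log 2 lam) (hN : N = mu / 4) (hA : 270 + A ≤ N)
    (hbase : ∀ X : ℕ, 2 ^ N ≤ X → ∀ g h d r : ℕ, 1025 * X ≤ 1024 * g → 1024 * h ≤ 1278 * X →
      1024 * d ≤ 2045 * X → 8 * r ≤ X → 1 ≤ r →
      HasTri q g (X + 1) h d r (Real.exp (-(2 : ℝ) ^ (X / 2)))) {m : ℕ}
    (hm : ∃ est : Estimator n, Reconstructs q n m est) :
    (n : ℝ) ^ ((1 / 65536 : ℝ) * Real.log (Real.log n)) ≤ m := by
  have hlam0 : lam ≠ 0 := by
    rintro rfl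
    rw [Nat.log_zero_right] at hmu
    omega
  have hl3 : 2 ^ mu ≤ lam := by rw [hmu]; exact Nat.pow_log_le_self 2 hlam0
  have hn0 : n ≠ 0 := by
    rintro rfl
    rw [Nat.log_zero_right] at hlam
    exact hlam0 hlam
  have hn3 : 2 ^ lam ≤ n := by rw [hlam]; exact Nat.pow_log_le_self 2 hn0
  obtain ⟨D, hD⟩ : ∃ D, D = N * 4 ^ (N - 264) := ⟨_, rfl⟩
  have hD1 : 1 ≤ D := by
    rw [hD]
    exact Nat.mul_pos (by omega) (by positivity)
  obtain ⟨z, hz⟩ : ∃ z, z = lam / (66560 * D) := ⟨_, rfl⟩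
  have h4N : 2 ^ (4 * N) ≤ lam :=
    (Nat.pow_le_pow_right (by norm_num) (by omega : 4 * N ≤ mu)).trans hl3
  have hzN : 2 ^ N ≤ z := two_pow_le_z (by omega) hD h4N hz
  have hz1 : 33 * N ^ 2 ≤ z := by
    rw [hz, Nat.le_div_iff_mul_le (by omega)]
    have h1 := choice_arith N (by omega)
    rw [← hD] at h1
    have e : 33 * N ^ 2 * (66560 * D) = 66560 * D * (33 * N ^ 2) := by ring
    omega
  have hz0 : 1 ≤ z := by
    have : 1 ≤ N ^ 2 := Nat.one_le_pow _ _ (by omega)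
    omega
  have e1 : N * (z * 4 ^ (N - 264)) = z * D := by rw [hD]; ring
  have h1 : 66560 * (N * (z * 4 ^ (N - 264))) ≤ lam := by
    rw [e1, hz]
    have := Nat.div_mul_le_self lam (66560 * D)
    have e : 66560 * (lam / (66560 * D) * D) = lam / (66560 * D) * (66560 * D) := by ring
    omega
  have h2 : lam ≤ 133120 * (N * (z * 4 ^ (N - 264))) := by
    rw [e1]
    have h3 := Nat.lt_mul_div_succ lam (show 0 < 66560 * D by omega)
    rw [← hz] at h3
    have e : 66560 * D * (z + 1) = 66560 * (z * D) + 66560 * D := by ring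
    have h4 : D ≤ z * D := Nat.le_mul_of_pos_left _ hz0
    omega
  have key := rate_at2 hstep hlow (by omega) (by omega) hz1
    (fun X hX => hbase X (hzN.trans hX)) h1 h2 hn3 hm
  exact final_arith hlam hmu hN (by omega) key

end Vale.Agent.P321.R4.H101
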