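import Vale.Agent.P321.Bdl.B8

/-! # Statements: the base of the lower bound with constants polynomial in `1 / q` -/

namespace Vale.Agent.P321.R4.H101

open Finset
open Vale.Agent.P321.Lt
open Vale.Agent.P321.MA (ev le Prob push restr Dom)

/-- the polynomial constant -/
noncomputable def Pq (M : ℕ) (q : ℝ) : ℝ := ((M : ℝ) / q) ^ M

/-- R1 -/
def StDom : Prop := ∃ M : ℕ, 1 ≤ M ∧ ∀ q : ℝ, 0 < q → q ≤ 1 / 2 → ∀ L : ℕ, 1 ≤ L →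
  Dom ((1 / 2 : ℝ) • (cell q (L + 1) (L - 1) - cell q (L - 1) (L + 1))) (U q ^ (2 * L + 1))
    (Pq M q * (L : ℝ) ^ (-(3 / 2) : ℝ)) ∧
  Dom ((1 / 2 : ℝ) • (cell q (L + 1) (L - 1) + cell q (L - 1) (L + 1)) - cell q L L)
    (U q ^ (2 * L + 1)) (Pq M q * (L : ℝ) ^ (-(5 / 2) : ℝ))

/-- R2 -/
def StCore : Prop := ∃ M : ℕ, 1 ≤ M ∧ ∀ q : ℝ, 0 < q → q ≤ 1 / 2 → ∀ K L : ℕ, 1 ≤ K → K + 1 ≤ L →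
  Pq M q * (((K + 1 : ℕ) : ℝ) / L) ^ (1 / 8 : ℝ) + Pq M q / Real.sqrt K ≤ 1 / 4 →
  ∃ h : LA, MA.nonneg h ∧ MA.le h (cell q L L ^ K) ∧ MA.le h (cell q L L ^ (K + 1)) ∧
    Real.exp (-(10 / q ^ 2) * ((L : ℝ) / K)) / 2 ≤ MA.l1 h

/-- R3 -/
def StOver : Prop := ∃ M : ℕ, 1 ≤ M ∧ ∀ q : ℝ, 0 < q → q ≤ 1 / 2 → ∀ L : ℕ,
  Pq M q ≤ Real.log L → ∃ (K : ℕ) (h : LA), K ≤ L ∧ MA.nonneg h ∧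
    MA.le h (cell q L L ^ K) ∧ MA.le h (cell q L L ^ (K + 1)) ∧
    (L : ℝ) ^ (-(1 / 4096) : ℝ) ≤ MA.l1 h

/-- R4 -/
def StNear : Prop := ∃ M : ℕ, 1 ≤ M ∧ ∀ q : ℝ, 0 < q → q ≤ 1 / 2 → ∀ L : ℕ, Pq M q ≤ L →
  ∃ Y X0 X1 : Alg, Prob Y ∧ Prob X0 ∧ Prob X1 ∧
    MA.l1 (W q (xw L L) - Y) ≤ 6 * (1 - 2 * q ^ 2 / 3) ^ L ∧
    MA.l1 (W q (xw (L - 1) (L + 1)) - X0) ≤ 6 * (1 - 2 * q ^ 2 / 3) ^ L ∧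
    MA.l1 (W q (xw (L + 1) (L - 1)) - X1) ≤ 6 * (1 - 2 * q ^ 2 / 3) ^ L ∧
    le ((1 - Pq M q / Real.sqrt L) • Y) X0 ∧ le ((1 - Pq M q / Real.sqrt L) • Y) X1 ∧
    le X0 ((1 + Pq M q / Real.sqrt L) • Y) ∧ le X1 ((1 + Pq M q / Real.sqrt L) • Y) ∧
    (∀ δ : ℝ, 0 ≤ δ → Dom ((1 / 2 : ℝ) • (cell q (L + 1) (L - 1) - cell q (L - 1) (L + 1)))
      (U q ^ (2 * L + 1)) δ → Dom ((1 / 2 : ℝ) • (X1 - X0)) Y (Pq M q * δ)) ∧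
    (∀ δ : ℝ, 0 ≤ δ → Dom ((1 / 2 : ℝ) • (cell q (L + 1) (L - 1) + cell q (L - 1) (L + 1))
        - cell q L L) (U q ^ (2 * L + 1)) δ →
      Dom ((1 / 2 : ℝ) • (X1 + X0) - Y) Y (Pq M q * δ))

/-- R5 -/
def StBase : Prop := ∃ M : ℕ, 1 ≤ M ∧ ∀ q : ℝ, 0 < q → q ≤ 1 / 2 → ∀ X : ℕ, Pq M q ≤ X →
  ∀ g h d r : ℕ, 1025 * X ≤ 1024 * g → 1024 * h ≤ 1278 * X →
    1024 * d ≤ 2045 * X → 8 * r ≤ X → 1 ≤ r →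
    MA.HasTri q g (X + 1) h d r (Real.exp (-(2 : ℝ) ^ (X / 2)))

end Vale.Agent.P321.R4.H101
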